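import Vale.Agent.P014U.Cp.Cc
import Vale.Agent.P014U.L2.Un
import Vale.Agent.P014U.Ba.Cnt
import Vale.Agent.P014U.G2.Lib
import Vale.Agent.P014U.X4M.TE.Red
import Vale.Agent.P022K.G2.Two
import Vale.Agent.P014T.Cp.Bb

/-! # P014U: local points of order `pp` which are orthogonal to all framed cocycles are global -/

set_option autoImplicit false
set_option linter.all false

open NumberField Matrix Module
open scoped Pointwise Classical

noncomputable section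

namespace Vale.Agent.P014U.Cp.Bb

export Vale.Agent.P014T.Cp.Bb (in_ins pl rps coc_one zs fx fx_open Yl dg dg_apply)

open Vale.Agent.P022 (Qb GQ IsConj)
open Vale.Agent.P022E.GW (Ov)
open Vale.Agent.P022D.W (dec)
open Vale.Agent.P027M.S (Inert)
open Vale.Agent.P022K Vale.Agent.P022K.G2
open P004M.TE (Pt ga ga_mul ga_one ev_ga)
open P004S (wp wp_smul_right)
open P014T.Wm (Fx)
open L2 (W M2 rh)
open Bt (Z0 Zl)
open Ba (Tk Tp mem_Tk mu)

variable [Pp]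

theorem p1 {X : Type} [AddCommGroup X] {x : X} : pp ^ 1 • x = 0 ↔ pp • x = 0 := by rw [pow_one]

theorem mu1 {X : Type} [AddCommGroup X] (x : X) : mu X 1 x = pp • x := by rw [Ba.mu_apply, pow_one]

/-- the index computation -/
theorem cnt {X V : Type} [AddCommGroup X] [AddCommGroup V] {Y Z : AddSubgroup X} (ev : X →+ V)
    (hZ : ∀ x, x ∈ Z ↔ x ∈ Y ∧ ev x = 0) (C : AddSubgroup V) [Finite C]
    (hC : ∀ x ∈ Y, pp • ev x = 0 → ev x ∈ C) (K : AddSubgroup Z)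
    (hK : ∀ z ∈ K, ∃ y ∈ Y, pp • y = z.1) (h2 : (mu Z 1).range ≤ K) :
    (mu Z 1).range.index * Nat.card (Tk Y 1) ≤ K.index * (Nat.card C * Nat.card (Tk Z 1)) := by
  set R := (mu Z 1).range
  have t1 (y : Tk Y 1) : pp • y.1.1 = 0 := congrArg Subtype.val (p1.1 y.2)
  let f : Tk Y 1 →+ C := ((ev.comp Y.subtype).comp (Tk Y 1).subtype).codRestrict C fun y =>
    hC y.1.1 y.1.2 (by rw [← map_nsmul, t1, map_zero])
  have c1 : Nat.card f.ker = Nat.card (Tk Z 1) := Nat.card_congr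
    ⟨fun y => ⟨⟨y.1.1.1, (hZ _).2 ⟨y.1.1.2, congrArg Subtype.val y.2⟩⟩, p1.2 (Subtype.ext (t1 y.1))⟩,
      fun z => ⟨⟨⟨z.1.1, ((hZ _).1 z.1.2).1⟩, Subtype.ext (congrArg Subtype.val (mem_Tk.1 z.2) :)⟩,
        Subtype.ext ((hZ _).1 z.1.2).2⟩, fun _ => rfl, fun _ => rfl⟩
  choose y y1 y2 using fun z : K => hK z.1 z.2
  have m (z : K) : ev (y z) ∈ C := hC _ (y1 z) (by rw [← map_nsmul, y2, ((hZ _).1 z.1.2).2])
  have c2 : R.relIndex K ≤ f.range.index :=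
    Nat.card_le_card_of_injective (fun q : K ⧸ R.addSubgroupOf K =>
      (QuotientAddGroup.mk ⟨_, m q.out⟩ : C ⧸ f.range)) fun q q' e => by
      obtain ⟨t, ht⟩ := QuotientAddGroup.eq.1 e
      have ht' : ev t.1.1 = -ev (y q.out) + ev (y q'.out) := congrArg Subtype.val ht
      rw [← q.out_eq', ← q'.out_eq', QuotientAddGroup.eq]
      refine ⟨⟨-y q.out + y q'.out - t.1.1, (hZ _).2 ⟨sub_mem (add_mem (neg_mem (y1 _)) (y1 _))
        t.1.2, by rw [map_sub, map_add, map_neg, ht', sub_self]⟩⟩, (mu1 _).trans (Subtype.ext ?_)⟩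
      show pp • (-y q.out + y q'.out - t.1.1) = -q.out.1.1 + q'.out.1.1
      rw [nsmul_sub, nsmul_add, neg_nsmul, y2, y2, t1, sub_zero]
  rw [← AddSubgroup.relIndex_mul_index h2, ← f.ker.card_mul_index, AddSubgroup.index_ker, c1,
    ← f.range.index_mul_card]
  calc _ = R.relIndex K * (K.index * (Nat.card f.range * Nat.card (Tk Z 1))) := by ring
    _ ≤ f.range.index * _ := Nat.mul_le_mul_right _ c2
    _ = _ := by ring

variable {A B : ℤ}

/-- coordinates on the points of order `pp` -/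
structure Br (ι : W →+ Pt A B) (a : GQ →* M2) : Prop where
  inj : Function.Injective ι
  rng : ∀ x, pp • x = 0 → ∃ v, ι v = x
  eqv : ∀ g v, ι (a g *ᵥ v) = ga g (ι v)

theorem br (hD : 4 * (A : ℚ) ^ 3 + 27 * (B : ℚ) ^ 2 ≠ 0) : Br (vv hD) (ab hD) :=
  ⟨vv_inj hD, fun _ h => ex_vv hD (p1.2 h), fun g v => (ga_vv hD g v).symm⟩

variable (A B) in
/-- the elements which fix the points of order `pp` -/
def U2 : Subgroup GQ where
  carrier := {g | ∀ x : Pt A B, pp • x = 0 → ga g x = x}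
  one_mem' x _ := ga_one _
  mul_mem' a b x h := by rw [ga_mul, b x h, a x h]
  inv_mem' {g} a x h := by rw [← a x h, ← ga_mul, inv_mul_cancel, ga_one, a x h]

theorem Br.opn {ι : W →+ Pt A B} {a : GQ →* M2} (b : Br ι a) : IsOpen (U2 A B : Set GQ) :=
  (U2 A B).isOpen_of_mem_nhds (g := 1)
    ((Filter.eventually_all.2 fun v : W => ev_ga 1 (ι v)).mono fun g e x t => by
      obtain ⟨v, rfl⟩ := b.rng x t
      exact (e v).trans (ga_one _))

variable (A B) in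
/-- large sets of primes -/
structure Lr (S : Finset ℕ) : Prop where
  pr : ∀ l ∈ S, l.Prime
  bad : ∀ l : ℕ, l.Prime → (l : ℤ) ∣ 2 * pp * (4 * A ^ 3 + 27 * B ^ 2) → l ∈ S
  ok : ∀ hD : 4 * (A : ℚ) ^ 3 + 27 * (B : ℚ) ^ 2 ≠ 0, Ok pp (insert 0 S) ⊤ (ab hD).ker (ro hD)
  hf : ∀ x ∈ Fx A B ⊤, (∀ l ∈ S, ∃ P, Ov l P ∧ Cc.Hf (dec P) x) → Cc.Hf ⊤ x

/-- `y` is a multiple of a cocycle on `D` -/
def Hv (D : Subgroup GQ) (y : GQ → Pt A B) : Prop := ∃ z ∈ Zl A B D, ∀ g ∈ D, pp • z g = y g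

variable {S : Finset ℕ} {c : GQ} {P : ℕ → Ideal (𝓞 Qb)}

theorem Lr.two (h : Lr A B S) : pp ∈ S :=
  h.bad pp pp_prime ((dvd_mul_left _ _).mul_right _)

theorem Lr.unr (h : Lr A B S) {g : GQ} (m : g ∈ In S) {k : ℕ} {x : Pt A B} (t : pp ^ k • x = 0) :
    ga g x = x := by
  obtain ⟨l, n, P, o, i⟩ := m
  have : Fact l.Prime := ⟨o.1⟩
  obtain ⟨κ, _, _, _, rd, h1, h2, -⟩ := X4M.TE.exists_rd (fun d => n (h.bad l o.1 d)) o.2.1 o.2.2
  exact sub_eq_zero.1 (X4M.TE.inj_tors h1 k (by rw [nsmul_sub, ← map_nsmul, t, map_zero, sub_self])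
    (by rw [map_sub, h2 g i, sub_self]))

/-- large sets exist, and stay large -/
theorem ex_lr (hD : 4 * A ^ 3 + 27 * B ^ 2 ≠ 0) : ∃ S₀ : Finset ℕ, (∀ l ∈ S₀, l.Prime) ∧
    ∀ S : Finset ℕ, S₀ ⊆ S → (∀ l ∈ S, l.Prime) → Lr A B S := by
  have hD' : 4 * (A : ℚ) ^ 3 + 27 * (B : ℚ) ^ 2 ≠ 0 := by exact_mod_cast hD
  obtain ⟨x, y, xy, n⟩ := L2.ex_syl (ab hD') ⊤
  obtain ⟨S₁, p1, q1⟩ := Tw2.lg' pp ⊤ (ab hD').ker (L2.Hs (ab hD') x) le_top
    (fun g m => (om_eq_one _).1 (dt_ab hD' ▸ L2.dt_ker m))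
    (fun g _ u m => (ab hD').normal_ker.conj_mem u m g) (ker_open hD')
    (Subgroup.isOpen_mono L2.ker_le (ker_open hD'))
  obtain ⟨S₂, p2, q2⟩ := Cc.cc hD ∅
  refine ⟨S₁.erase 0 ∪ S₂ ∪ (2 * pp * (4 * A ^ 3 + 27 * B ^ 2)).natAbs.primeFactors, fun l m => ?_,
    fun S le pr => ⟨pr, fun l p d => le (Finset.mem_union_right _ (Nat.mem_primeFactors.2
      ⟨p, Int.natCast_dvd.1 d, by simpa [pp_ne] using hD⟩)), fun _ => ?_,
      fun x hx h => q2 x hx fun l m => h l (le (by simp [m]))⟩⟩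
  · simp only [Finset.mem_union, Finset.mem_erase] at m
    rcases m with (m | m) | m
    exacts [(p1 l m.2).resolve_left m.1, (p2 l m).1, Nat.prime_of_mem_primeFactors m]
  · obtain ⟨a, b⟩ := q1 (insert 0 S) (fun l m => Finset.mem_insert.2 (or_iff_not_imp_left.2 fun e =>
      le (by simp [m, e]))) fun l m => (Finset.mem_insert.1 m).imp_right (pr l)
    exact L2.ok (dt_ab hD') xy n a b

variable (A B) in
/-- the number of points of order at most `pp` which are fixed by `D` -/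
def h0 (D : Subgroup GQ) : ℕ := Nat.card (Tk (Fx A B D) 1)

section

variable (hD : 4 * (A : ℚ) ^ 3 + 27 * (B : ℚ) ^ 2 ≠ 0)

theorem h0_eq (D : Subgroup GQ) :
    pp ^ finrank (ZMod pp) (H0 D (ro hD) fun _ => 1) = h0 A B D := by
  have := Module.natCard_eq_pow_finrank (K := ZMod pp) (V := H0 D (ro hD) fun _ => 1)
  rw [Nat.card_zmod] at this
  refine this.symm.trans (Nat.card_congr (Equiv.ofBijective (fun v => ⟨⟨vv hD v.1, fun g m => ?_⟩,
    Subtype.ext (vv_two hD _)⟩) ⟨fun v v' e => Subtype.ext (vv_inj hD (congrArg (·.1.1) e)),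
      fun x => ?_⟩))
  · rw [ga_vv]
    exact congrArg (vv hD) ((v.2 g m).trans (one_smul _ _))
  · obtain ⟨v, e⟩ := ex_vv hD (t := x.1.1) (congrArg Subtype.val (mem_Tk.1 x.2))
    exact ⟨⟨v, fun g m => vv_inj hD (by
      rw [one_smul, mulVecLin_apply, ← ga_vv, e, x.1.2 g m])⟩, Subtype.ext (Subtype.ext e)⟩

include hD in
theorem ex_hf : ∃ hf : Pt A B → Pt A B, hf 0 = 0 ∧ ∀ x, pp • hf x = x := by
  choose f e using fun x : Pt A B => X4M.TE.mul_surj two_ne_zero hD pp_ne x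
  exact ⟨fun x => if x = 0 then 0 else f x, if_pos rfl, fun x => by by_cases h : x = 0 <;> simp [h, e]⟩

/-- the functions of finite level -/
def Nc (S : Finset ℕ) (t : GQ → Pt A B) : Prop := ∃ V, Lv (In (insert 0 S : Finset ℕ)) V ∧
  ∀ g, ∀ w ∈ V, t (g * w) = t g ∧ ga w (t g) = t g

theorem nc_of (h : Lr A B S) {y : GQ → Pt A B} (hy : y ∈ Z0 A B S c) {hf : Pt A B → Pt A B}
    (f2 : ∀ x, pp • hf x = x) : Nc S fun g => hf (y g) := by
  obtain ⟨lc, co, ⟨k, tk⟩, ur, y0⟩ := hy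
  have := cpt
  refine ⟨_, Hb.lv_core (Z := zs co ⊓ fx (Set.range (hf ∘ y)))
    ((lc.isOpen_fiber 0).inter (fx_open (lc.comp hf).range_finite)) fun g m =>
      ⟨ur g (in_ins ▸ m), ?_⟩, fun g w m => ⟨?_, (Subgroup.normalCore_le _ m).2 _ ⟨g, rfl⟩⟩⟩
  · rintro _ ⟨j, rfl⟩
    exact h.unr (in_ins ▸ m) (k := k + 1) (by rw [pow_succ, mul_smul, Function.comp, f2, tk])
  · beta_reduce
    rw [co, (Subgroup.normalCore_le _ m).1, map_zero, add_zero]

/-- the obstruction -/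
def be (t : GQ → Pt A B) (g j : GQ) : W := uv hD (bk t g j)

theorem vv_be {t y : GQ → Pt A B} (hy : y ∈ Z0 A B S c) (e : ∀ g, pp • t g = y g) (g j : GQ) :
    vv hD (be hD t g j) = bk t g j := vv_uv' hD (by
  rw [bk, nsmul_add, nsmul_sub, ← map_nsmul, e, e, e, hy.2.1]; abel)

theorem be_sh {φ : Qb →+* ℂ} (hφ : ∀ x, φ (c x) = starRingEnd ℂ (φ x)) {t y : GQ → Pt A B}
    (hy : y ∈ Z0 A B S c) (e : ∀ g, pp • t g = y g) (n : Nc S t) (t0 : ∀ g, y g = 0 → t g = 0)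
    (hv : ∀ l ∈ S, Hv (dec (P l)) y) :
    be hD t ∈ Sh (In (insert 0 S : Finset ℕ)) ⊤ (Dv ⊤ (pl S φ P)) (ro hD) := by
  obtain ⟨V, lv, v⟩ := n
  have eβ := vv_be hD hy e
  refine ⟨⟨fun g _ i _ j _ => vv_inj hD (by
      rw [map_add, map_add, mulVecLin_apply, ← ga_vv, eβ, eβ, eβ, eβ, bk_co]),
      V, lv, fun g _ j _ w _ m => ⟨congrArg (uv hD) (by
        rw [bk, bk, ga_mul, (v j w m).2, (v g w m).1, show g * w * j = g * j * (j⁻¹ * w * j) by group,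
          (v _ _ (lv.cj m j)).1]), congrArg (uv hD) (by
        rw [bk, bk, ← mul_assoc, (v _ w m).1, (v _ w m).1])⟩⟩, (Submodule.mem_iInf _).2 ?_⟩
  rintro (_ | l)
  · have z : ∀ g ∈ Dv ⊤ (pl S φ P) none, t g = 0 := fun g m => t0 g (by
      rcases (st_conj hφ).le m.2 with rfl | rfl
      exacts [(zs hy.2.1).one_mem, hy.2.2.2.2])
    exact b2_of_zero fun g p j q => vv_inj hD (by
      rw [eβ, bk, z g p, z j q, z _ (mul_mem p q), map_zero, map_zero, sub_self, add_zero])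
  · obtain ⟨z, ⟨z1, z3, -⟩, z4⟩ := hv l l.2
    have dm {g} (m : g ∈ Dv ⊤ (pl S φ P) (some l)) : g ∈ dec (P l) := st_fp (P l) ▸ m.2
    obtain ⟨O, o1, o2⟩ := isOpen_induced_iff.1 (z1.isOpen_fiber 0)
    obtain ⟨V', lv', le⟩ := ex_lv o1 (show (1 : dec (P l)) ∈ Subtype.val ⁻¹' O from
      o2 ▸ coc_one (z3 1 (one_mem _) 1 (one_mem _)))
    have ec {g} (m : g ∈ dec (P l)) : vv hD (uv hD (t g - z g)) = t g - z g :=
      vv_uv' hD (by rw [nsmul_sub, e, z4 g m, sub_self])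
    refine ⟨fun g => uv hD (t g - z g), ⟨V ⊓ V',
      (lv.mono (Set.empty_subset _)).inf lv', fun g p w q m => ?_⟩, fun g p j q => vv_inj hD ?_⟩
    · have : z w = 0 := o2.le (show (⟨w, dm q⟩ : dec (P l)) ∈ Subtype.val ⁻¹' O from le m.2)
      simp only [(v g w m.1).1, z3 g (dm p) w (dm q), this, map_zero, add_zero]
    · simp only [eβ, bk, d1_apply, map_add, map_sub, mulVecLin_apply, ← ga_vv, ec (dm p), ec (dm q),
        ec (dm (mul_mem p q))]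
      rw [z3 g (dm p) j (dm q)]
      abel

theorem be_b2 {t y t' y' : GQ → Pt A B} (hy : y ∈ Z0 A B S c) (e : ∀ g, pp • t g = y g)
    (n : Nc S t) (hy' : y' ∈ Z0 A B S c) (e' : ∀ g, pp • t' g = y' g) (n' : Nc S t')
    (b : be hD t' - be hD t ∈ B2 (In (insert 0 S : Finset ℕ)) ⊤ (ro hD)) :
    ∃ z ∈ Z0 A B S 1, pp • z = -y + y' := by
  obtain ⟨u, ⟨V₃, l3, hu⟩, b⟩ := b
  obtain ⟨V₁, l1, v1⟩ := n
  obtain ⟨V₂, l2, v2⟩ := n'
  obtain ⟨k, tk⟩ := (add_mem (neg_mem hy) hy').2.2.1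
  let z (g : GQ) := t' g - t g - vv hD (u g)
  have pz (g) : pp • z g = (-y + y') g := by
    rw [nsmul_sub, nsmul_sub, e, e', vv_pp, sub_zero, Pi.add_apply, Pi.neg_apply, neg_add_eq_sub]
  have cz (g j) : z (g * j) = z g + ga g (z j) := by
    have := congrArg (vv hD) (b g trivial j trivial)
    simp only [Pi.sub_apply, vv_be hD hy e, vv_be hD hy' e', bk, d1_apply, map_add, map_sub,
      mulVecLin_apply, ← ga_vv] at this
    simp only [z, map_sub]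
    rw [← sub_eq_zero, ← neg_eq_zero, ← sub_eq_zero.2 this]
    abel
  have w1 (g) {w} (m : w ∈ V₁ ⊓ V₂ ⊓ V₃) : z (g * w) = z g := by
    simp only [z, (v1 g w m.1.1).1, (v2 g w m.1.2).1, hu g trivial w trivial m.2]
  have lv := (l1.inf l2).inf l3
  refine ⟨z, ⟨P004S.lc_of_open lv.opn (one_mem _) fun g w m => w1 g m, cz, ⟨k + 1, fun g => ?_⟩,
    fun g m => ?_, coc_one (cz 1 1)⟩, funext pz⟩
  · rw [pow_succ, mul_smul, pz, tk]
  · have := w1 1 (lv.sub (in_ins.symm ▸ m))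
    rwa [one_mul, coc_one (cz 1 1)] at this

theorem card_z1 : Nat.card (Z1 (In (insert 0 S : Finset ℕ)) ⊤ (ro hD)) =
    Nat.card (Tk (Z0 A B S 1) 1) := by
  refine Nat.card_congr (Equiv.ofBijective (fun z => ⟨⟨fun g => vv hD (z.1 g), ?_⟩,
    Subtype.ext (funext fun g => vv_two hD _)⟩) ⟨fun z z' e => Subtype.ext (funext fun g =>
      vv_inj hD (congrFun (congrArg (·.1.1) e) g)), fun x => ?_⟩)
  · obtain ⟨z, p, -, V, hV, q⟩ := z
    have co (g j) : vv hD (z (g * j)) = vv hD (z g) + ga g (vv hD (z j)) := by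
      rw [p g trivial j trivial, map_add, mulVecLin_apply, ga_vv]
    exact ⟨P004S.lc_of_open hV.opn (one_mem _) fun g w m => by
        rw [co, q w trivial m, map_zero, map_zero, add_zero], co, ⟨1, fun g => vv_two hD _⟩,
      fun g m => (congrArg (vv hD) (q g trivial (hV.sub (in_ins.symm ▸ m)))).trans (map_zero _),
      coc_one (y := fun g => vv hD (z g)) (co 1 1)⟩
  · obtain ⟨⟨x, lc, co, -, ur, -⟩, t⟩ := x
    have e (g) : vv hD (uv hD (x g)) = x g :=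
      vv_uv hD (congrFun (congrArg Subtype.val (mem_Tk.1 t)) g)
    exact ⟨⟨fun g => uv hD (x g), fun g _ j _ => vv_inj hD (by
        rw [map_add, mulVecLin_apply, ← ga_vv, e, e, e, co]), fun g m => absurd trivial m, _,
      Hb.lv_core (Z := zs co) (lc.isOpen_fiber 0) fun g m => ur g (in_ins ▸ m), fun w _ m =>
        vv_inj hD (by rw [e, map_zero]; exact Subgroup.normalCore_le (zs co) m)⟩,
      Subtype.ext (Subtype.ext (funext e))⟩

/-- the locally trivial classes -/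
abbrev SQ (S : Finset ℕ) (φ : Qb →+* ℂ) (P : ℕ → Ideal (𝓞 Qb)) :=
  (Sh (In (insert 0 S : Finset ℕ)) ⊤ (Dv ⊤ (pl S φ P)) (ro hD)).map
    (B2 (In (insert 0 S : Finset ℕ)) ⊤ (ro hD)).mkQ

/-- **the global count** -/
theorem glob (h : Lr A B S) {φ : Qb →+* ℂ} (hφ : ∀ x, φ (c x) = starRingEnd ℂ (φ x))
    (o : ∀ l ∈ S, Ov l (P l)) : Finite (Tk (Z0 A B S 1) 1) ∧ Finite (SQ hD S φ P) ∧
    Nat.card (SQ hD S φ P) * (h0 A B (Subgroup.zpowers c) * ∏ l : S, h0 A B (dec (P l))) * pp ^ 2 ≤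
      Nat.card (Tk (Z0 A B S 1) 1) * h0 A B ⊤ := by
  have ok := h.ok hD
  have f := ok.fin
  obtain ⟨f1, -, g⟩ := G2.chi2 _ W ⊤ _ _ _ _ _ ok (rps φ o)
  have g1 := (Cx.ar_cone (cone GQ _ W _ ⊤ _ _ _ ok.rp (Dv_le ⊤ (pl S φ P))) f1 (Cx.fin_cr f _)
    (Cx.fin_tn f f1)).1 g
  have g2 := Cx.can (Cx.fin_cr f _) ((le_of_eq_of_le (by ring) (add_le_add_left (add_le_add_right
    (G2.llb2 _ W ⊤ _ _ _ _ _ ok (rps φ o)) _) _)).trans g1 :
      sh _ _ _ _ + ∑ i, rk (Hm (Dv ⊤ (pl S φ P) i) (ro hD) (om pp (ZMod pp))) +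
        Module.rank (ZMod pp) W + _ ≤ _)
  have fz : Module.Finite (ZMod pp) (Z1 (In (insert 0 S : Finset ℕ)) ⊤ (ro hD)) :=
    Module.rank_lt_aleph0_iff.1 f1
  have fs : Module.Finite (ZMod pp) (SQ hD S φ P) := Module.rank_lt_aleph0_iff.1
    (((self_le_add_right _ _).trans ((self_le_add_right _ _).trans g2)).trans_lt
      (Cardinal.add_lt_aleph0 (Cx.fin_hm f) f1))
  have u := fun D => L2.hm_h0 (A := D) (a := ab hD)
  rw [dt_ab] at u
  simp only [u] at g2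
  rw [rank_fin_fun, ← Nat.cast_sum, sh, rq, rk, ← finrank_eq_rank, ← finrank_eq_rank] at g2
  norm_cast at g2
  have := Module.finite_of_finite (ZMod pp) (M := Z1 (In (insert 0 S : Finset ℕ)) ⊤ (ro hD))
  refine ⟨Nat.finite_of_card_ne_zero (card_z1 hD ▸ Nat.card_pos.ne'),
    Module.finite_of_finite (ZMod pp), ?_⟩
  rw [← card_z1 hD, Module.natCard_eq_pow_finrank (K := ZMod pp) (V := SQ hD S φ P),
    Module.natCard_eq_pow_finrank (K := ZMod pp) (V := Z1 _ _ _), Nat.card_zmod, ← h0_eq hD ⊤,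
    ← pow_add, add_comm]
  refine le_of_eq_of_le ?_ (Nat.pow_le_pow_right pp_pos g2)
  rw [pow_add, pow_add, ← Finset.prod_pow_eq_pow_sum, Fintype.prod_option]
  simp only [h0_eq]
  refine congrArg (_ * · * _) (congrArg₂ _ (congrArg (h0 A B) (le_antisymm ?_ fun g m => ?_))
    (Finset.prod_congr rfl fun l _ => congrArg (h0 A B) ((top_inf_eq _).trans (st_fp _)).symm))
  · exact Subgroup.zpowers_le.2 ⟨trivial, (st_conj hφ).ge (.inr rfl)⟩
  · rcases (st_conj hφ).le m.2 with rfl | rfl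
    exacts [one_mem _, Subgroup.mem_zpowers _]

end

theorem h0_ne (hD : 4 * A ^ 3 + 27 * B ^ 2 ≠ 0) (D : Subgroup GQ) : h0 A B D ≠ 0 := by
  rw [← h0_eq (by exact_mod_cast hD)]
  exact pow_ne_zero _ pp_ne

theorem fin0 (hD : 4 * A ^ 3 + 27 * B ^ 2 ≠ 0) (h : Lr A B S) (hc : IsConj c)
    (o : ∀ l ∈ S, Ov l (P l)) : Finite (Tk (Z0 A B S 1) 1) :=
  hc.elim fun _ hφ => (glob (by exact_mod_cast hD) h hφ o).1

theorem dg_inj (h : Lr A B S) : Function.Injective (dg A B S P) := fun _ _ e =>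
  Subtype.ext (congrArg (fun y : Yl A B S P => (y ⟨pp, h.two⟩).1) e)

theorem card_yl : Nat.card (Tk (Yl A B S P) 1) = ∏ l : S, h0 A B (dec (P l)) :=
  (Nat.card_congr ⟨fun y l => ⟨y.1 l, congrFun (mem_Tk.1 y.2) l⟩,
    fun y => ⟨fun l => (y l).1, funext fun l => (y l).2⟩, fun _ => rfl, fun _ => rfl⟩).trans
    Nat.card_pi

variable (A B c) in
/-- the points of order `pp` on which `c` is minus one -/
def Cm : AddSubgroup (Pt A B) where
  carrier := {x | pp • x = 0 ∧ ga c x = -x}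
  zero_mem' := ⟨nsmul_zero _, by simp⟩
  add_mem' a b := ⟨by rw [nsmul_add, a.1, b.1, add_zero], by rw [map_add, a.2, b.2, neg_add]⟩
  neg_mem' a := ⟨by rw [neg_nsmul, a.1, neg_zero], by rw [map_neg, a.2]⟩

theorem ex_cm (hD : 4 * (A : ℚ) ^ 3 + 27 * (B : ℚ) ^ 2 ≠ 0) (cc : c * c = 1) (d : oz pp c = -1) :
    ∃ f : Cm A B c → Tk (Fx A B (Subgroup.zpowers c)) 1, Function.Injective f := by
  obtain ⟨x, x0, x1⟩ : ∃ x : W, x ≠ 0 ∧ ab hD c *ᵥ x = x := by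
    by_contra! n
    have e : ab hD c = -1 := Matrix.ext_iff_mulVec.2 fun v => by
      rw [neg_mulVec, one_mulVec, eq_neg_iff_add_eq_zero]
      exact by_contra fun k => n _ k (by rw [mulVec_add, ← L2.am, cc, L2.a1, add_comm])
    have := congrFun (dt_ab hD) c
    rw [L2.dt, e, det_neg, det_one, show X4S.Aq.ω c = -1 by simp [X4S.Aq.ω, om, d],
      Fintype.card_fin] at this
    exact two_ne (by linear_combination this)
  obtain ⟨y, xy⟩ := L2.ex_y x x0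
  have u (z : Cm A B c) := vv_uv' hD z.2.1
  refine ⟨fun z => ⟨⟨vv hD (wp x (uv hD z) • x), fun g m => Subgroup.zpowers_le (H := fx {_}).2 (by
    rintro _ rfl
    rw [ga_vv, mulVec_smul, x1]) m _ rfl⟩, Subtype.ext (vv_two hD _)⟩, fun z z' e => ?_⟩
  have e1 := L2.on_line xy (v := uv hD z - uv hD z') (by
    rw [P004S.wp_sub_right, L2.smul_x xy (vv_inj hD (congrArg (·.1.1) e)), sub_self])
  have e2 := congrArg (fun v => vv hD (ab hD c *ᵥ v)) e1
  simp only [mulVec_smul, x1] at e2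
  rw [← e1, ← ga_vv, map_sub, u, u, map_sub, z.2.2, z'.2.2] at e2
  refine Subtype.ext (sub_eq_zero.1 (half (k := 1) (p1.2 (sub_mem z.2 z'.2).1) ?_))
  rw [two_nsmul]
  nth_rw 1 [← e2]
  abel

/-- **(b)** -/
theorem bb (hD : 4 * A ^ 3 + 27 * B ^ 2 ≠ 0) (h : Lr A B S) (hc : IsConj c)
    (o : ∀ l ∈ S, Ov l (P l)) (pr : Yl A B S P →+ Z0 A B S c →+ Ba.Dv)
    (hv : ∀ z : Z0 A B S c, (∀ y, pp • y = 0 → pr y z = 0) → ∀ l ∈ S, Hv (dec (P l)) z.1)
    (rc : ∀ x z, pr (dg A B S P x) z = 0) (ix : (mu (Z0 A B S c) 1).range.index ≠ 0)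
    (ck : Nat.card (Tk (Z0 A B S c) 1) ≤ pp ^ 2 * (mu (Z0 A B S c) 1).range.index)
    {y : Yl A B S P} (y2 : pp • y = 0) (hy : ∀ z, pr y z = 0) : y ∈ (dg A B S P).range := by
  have hD' : 4 * (A : ℚ) ^ 3 + 27 * (B : ℚ) ^ 2 ≠ 0 := by exact_mod_cast hD
  have ne := fun D => h0_ne hD D
  have fT : Finite (Tk (Yl A B S P) 1) := Nat.finite_of_card_ne_zero
    (card_yl.trans_ne (Finset.prod_ne_zero_iff.2 fun _ _ => ne _))
  let p := pr.comp (Tk (Yl A B S P) 1).subtype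
  obtain ⟨φ, hφ⟩ := hc
  have cc : c * c = 1 := AlgEquiv.ext fun x => φ.injective (by simp [hφ])
  obtain ⟨fc, ic⟩ := ex_cm hD' cc (oz_cc hφ)
  have := Nat.finite_of_card_ne_zero (ne (Subgroup.zpowers c))
  have := Finite.of_injective fc ic
  have cC : Nat.card (Cm A B c) ≤ h0 A B (Subgroup.zpowers c) := Nat.card_le_card_of_injective fc ic
  obtain ⟨-, fs, g⟩ := glob hD' h hφ o
  obtain ⟨hf, f0, f2⟩ := ex_hf hD'
  let K := p.flip.ker
  let K' := K ⊓ ((Z0 A B S 1).map (nsmulAddMonoidHom pp)).comap (Z0 A B S c).subtype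
  have up {x} (m : x ∈ Z0 A B S c) : x ∈ Z0 A B S 1 :=
    ⟨m.1, m.2.1, m.2.2.1, m.2.2.2.1, coc_one (m.2.1 1 1)⟩
  have k := cnt (Y := Z0 A B S 1) (Z := Z0 A B S c) (Pi.evalAddMonoidHom (fun _ => Pt A B) c)
    (fun x => ⟨fun m => ⟨up m, m.2.2.2.2⟩, fun ⟨⟨a1, a2, a3, a4, _⟩, a5⟩ => ⟨a1, a2, a3, a4, a5⟩⟩)
    (Cm A B c) (fun x ⟨_, a2, _, _, a5⟩ t => ⟨t, by
      have := a2 c c
      rw [cc, a5] at this
      exact eq_neg_of_add_eq_zero_right this.symm⟩) K' (fun z m => m.2) (by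
      rintro _ ⟨z, rfl⟩
      rw [mu1]
      refine ⟨AddMonoidHom.ext fun t => ?_, z, up z.2, rfl⟩
      show pr t.1 (pp • z) = 0
      rw [map_nsmul, ← AddMonoidHom.nsmul_apply, ← map_nsmul, p1.1 t.2, map_zero,
        AddMonoidHom.zero_apply])
  have s : K'.relIndex K ≤ Nat.card (SQ hD' S φ P) :=
    Nat.card_le_card_of_injective (fun q : K ⧸ K'.addSubgroupOf K => (⟨_, _, be_sh hD' hφ q.out.1.2
      (fun g => f2 _) (nc_of h q.out.1.2 f2) (fun g e => by rw [e, f0]) (hv _ fun y t =>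
        DFunLike.congr_fun q.out.2 ⟨y, p1.2 t⟩), rfl⟩ : SQ hD' S φ P)) fun q q' e => by
      rw [← q.out_eq', ← q'.out_eq', QuotientAddGroup.eq]
      exact ⟨(-q.out + q'.out).2, be_b2 hD' q.out.1.2 (fun g => f2 _) (nc_of h q.out.1.2 f2)
        q'.out.1.2 (fun g => f2 _) (nc_of h q'.out.1.2 f2)
        ((Submodule.Quotient.eq _).1 (congrArg Subtype.val e).symm)⟩
  rw [← AddSubgroup.relIndex_mul_index (inf_le_left : K' ≤ K),
    (Ba.fd (fun t => ⟨1, Subtype.ext t.2⟩) p).1] at k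
  rw [← card_yl, ← p.ker.index_mul_card] at g
  have i0 : p.ker.index ≠ 0 := AddSubgroup.index_ne_zero_of_finite
  have le : Nat.card p.ker ≤ h0 A B ⊤ := by
    have k1 := Nat.le_of_mul_le_mul_left (k.trans ((Nat.mul_le_mul (Nat.mul_le_mul_right _ s)
      (Nat.mul_le_mul cC ck)).trans_eq (by ring : _ = _ * (Nat.card (SQ hD' S φ P) * p.ker.index *
        h0 A B (Subgroup.zpowers c) * pp ^ 2)))) (Nat.pos_of_ne_zero ix)
    have k2 := g.trans (Nat.mul_le_mul_right _ k1)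
    refine Nat.le_of_mul_le_mul_left (le_of_eq_of_le ?_ k2) (c := _ * p.ker.index * _ * pp ^ 2)
      (by have := ne (Subgroup.zpowers c); have := pp_pos
          have := Nat.card_pos (α := SQ hD' S φ P); positivity)
    ring
  let f (x : Tk (Fx A B ⊤) 1) : p.ker := ⟨⟨dg A B S P x.1, by
    rw [mem_Tk, ← map_nsmul, mem_Tk.1 x.2, map_zero]⟩, AddMonoidHom.ext (rc _)⟩
  obtain ⟨x, e⟩ := (Function.Injective.bijective_of_nat_card_le (f := f) (fun x x' e => Subtype.ext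
    (dg_inj h (congrArg (·.1.1) e))) le).2 ⟨⟨y, p1.2 y2⟩, AddMonoidHom.ext hy⟩
  exact ⟨x.1, congrArg (·.1.1) e⟩

/-- **(c)** in the same words -/
theorem hc (h : Lr A B S) (o : ∀ l ∈ S, Ov l (P l)) {y : Yl A B S P}
    (hy : pp • y ∈ (dg A B S P).range) : ∃ r ∈ (dg A B S P).range, pp • y = pp • r := by
  obtain ⟨x, e⟩ := hy
  have k : ∀ l ∈ S, ∃ Q, Ov l Q ∧ Cc.Hf (dec Q) x.1 := fun l k =>
    ⟨P l, o l k, (y ⟨l, k⟩).1, (y ⟨l, k⟩).2, by
      rw [← dg_apply (P := P) x ⟨l, k⟩, e, Pi.smul_apply, AddSubgroup.coe_nsmul]⟩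
  obtain ⟨z, m, t⟩ := h.hf x.1 x.2 k
  have t' : x = pp • (⟨z, m⟩ : Fx A B ⊤) := Subtype.ext t.symm
  exact ⟨dg A B S P ⟨z, m⟩, ⟨_, rfl⟩, by rw [← e, t', map_nsmul]⟩

end Vale.Agent.P014U.Cp.Bb
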