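import Vale.Agent.P014U.Cp.One
import Vale.Agent.P014U.Iv.Inv

/-!
# P014U, block CPT: reciprocity for the local pairings (port by helper94)
-/

set_option autoImplicit false
set_option linter.all false

open scoped Classical

noncomputable section

namespace Vale.Agent.P014U.Cp

open NumberField
open Vale.Agent.P022 (Qb GQ IsConj)
open Vale.Agent.P022K
open Vale.Agent.P022K.G2 (In)
open Vale.Agent.P027M.S (Inert)
open Vale.Agent.P022D.W (dec inP_le_dec)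
open Vale.Agent.P022E.GW (Ov)
open Vale.Agent.P014U.X4S.Ga (K O Z2 B2)
open Vale.Agent.P014U.X4S.Aq
open Vale.Agent.P014U.X4F.Rc (mq mq_eq mq_zero b2_zero unr1)
open Vale.Agent.P004M.TE (Pt ga ga_mul ga_one)
open Ki (Pr tor tor_map)
open Bt (dd Zl Z0 Z0_le dd_apply)
open P014T.Wm (Fx)
open Vale.Agent.P014U.Iv (iv iv_b2 iv_iff)

variable [Pp] {A B : ℤ} {l n : ℕ} {P : Ideal (𝓞 Qb)} {w : ℕ → Pt A B → Pt A B → K}
  {a b : GQ → Pt A B} {S : Finset ℕ} {c : GQ}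

theorem ivP (o : Ov l P) : Iv (dec P) (iv P) :=
  ⟨fun _ => iv_b2 o, fun _ hz => (iv_iff o hz).1⟩

theorem nd_of (hD : 4 * (A : ℚ) ^ 3 + 27 * (B : ℚ) ^ 2 ≠ 0) (hl : l.Prime) (h : l ∉ Sb A B) :
    ¬ (l : ℤ) ∣ 2 * pp * (4 * A ^ 3 + 27 * B ^ 2) := fun k => h (Nat.mem_primeFactors.2 ⟨hl,
  Int.natCast_dvd.1 k, Int.natAbs_ne_zero.2 (mul_ne_zero (mul_ne_zero two_ne_zero
    (Nat.cast_ne_zero.2 pp_ne)) (by exact_mod_cast hD))⟩)

theorem ur_pt (o : Ov l P) (h : ¬ (l : ℤ) ∣ 2 * pp * (4 * A ^ 3 + 27 * B ^ 2)) {i : GQ} (hi : Inert P i)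
    {y : Pt A B} (e : pp ^ n • (ga i y - y) = 0) : ga i y = y := by
  have := Fact.mk o.1
  obtain ⟨_, _, _, _, rd, h1, h2, -⟩ := X4M.TE.exists_rd h o.2.1 o.2.2
  exact sub_eq_zero.1 (X4M.TE.inj_tors h1 n e (by rw [map_sub, h2 i hi, sub_self]))

theorem Zn.one {D : Subgroup GQ} (p : Zn D n a) : a 1 = 0 := by
  have := p.co 1 D.one_mem 1 D.one_mem
  rwa [mul_one, ga_one, left_eq_add] at this

/-- the cup product of two unramified cocycles -/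
theorem cp_unr (H : Pr (M := Pt A B) ga w) (o : Ov l P)
    (h : ¬ (l : ℤ) ∣ 2 * pp * (4 * A ^ 3 + 27 * B ^ 2)) (p : Zn (dec P) n a) (q : Zn (dec P) n b)
    (ua : ∀ i, Inert P i → a i = 0) (ub : ∀ i, Inert P i → b i = 0) :
    B2 cy (dec P) (cp w n a b) := by
  rw [← top_inf_eq (dec P)]
  refine unr1 isOpen_univ o (fun e => h (by rw [e]; exact (dvd_mul_left _ _).mul_right _)) le_top
    ((top_inf_eq (dec P)).symm ▸ cp_z2 H p q) fun g hg j hj i m => ?_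
  have t := q.tr j hj.2
  simp only [cp, p.co g hg.2 i (inP_le_dec m), q.co j hj.2 i (inP_le_dec m), ua i m, ub i m,
    map_zero, add_zero, ga_mul, ur_pt o h m (by rw [nsmul_sub, tor_map t, t, sub_self]), sub_self,
    zero_mem, and_self]

/-- **reciprocity for two global cocycles** -/
theorem rec_cp (hD : 4 * (A : ℚ) ^ 3 + 27 * (B : ℚ) ^ 2 ≠ 0) (H : Pr (M := Pt A B) ga w)
    (hS : Sb A B ⊆ S) (P : ℕ → Ideal (𝓞 Qb)) (o : ∀ p ∈ S, Ov p (P p)) (hc : IsConj c)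
    (p : Zn ⊤ n a) (q : Zn ⊤ n b) (ua : ∀ i ∈ In S, a i = 0) (ub : ∀ i ∈ In S, b i = 0)
    (bc : a c = 0 ∨ b c = 0) : ∑ p ∈ S, iv (P p) (cp w n a b) = 0 := by
  refine P014U.Iv.rec (cp_z2 H p q) S P o (fun l hl m => ?_) (hc.elim fun φ e =>
    ⟨.mk φ, b2_zero fun g hg j hj => mq_zero.1 ?_⟩)
  · obtain ⟨Q, k⟩ := P022.H916.exists_prime hl
    exact ⟨Q, ⟨hl, k⟩, cp_unr H ⟨hl, k⟩ (nd_of hD hl fun x => m (hS x)) (p.mono le_top)
      (q.mono le_top) (fun i r => ua i ⟨l, m, Q, ⟨hl, k⟩, r⟩) fun i r => ub i ⟨l, m, Q, ⟨hl, k⟩, r⟩⟩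
  · rw [← SetLike.mem_coe, G2.st_conj e] at hg hj
    rcases bc with k | k
    · rw [cp, show a g = 0 from hg.elim (fun x => x ▸ p.one) fun x => x ▸ k,
        H.zl (tor_map (q.tr j trivial) g)]
    · rw [cp, show b j = 0 from hj.elim (fun x => x ▸ q.one) fun x => x ▸ k, map_zero,
        H.zr (p.tr g trivial)]

theorem zn_z0 {y : GQ → Pt A B} (h : y ∈ Z0 A B S c) : ∃ n, Zn ⊤ n y := mem_Zl.1 (Z0_le S c ⊤ h)

/-- **rational points are orthogonal to the framed cocycles** -/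
theorem rr (hD : 4 * (A : ℚ) ^ 3 + 27 * (B : ℚ) ^ 2 ≠ 0) (H : Pr (M := Pt A B) ga w)
    (hS : Sb A B ⊆ S) (P : ℕ → Ideal (𝓞 Qb)) (o : ∀ p ∈ S, Ov p (P p)) (hc : IsConj c)
    {x : Pt A B} (hx : x ∈ Fx A B ⊤) {y : GQ → Pt A B} (hy : y ∈ Z0 A B S c) :
    ∑ p : S, pr H (ivP (o p p.2)) ⟨x, fun g _ => hx g trivial⟩ ⟨y, Z0_le S c _ hy⟩ = 0 := by
  obtain ⟨n, q⟩ := zn_z0 hy
  obtain ⟨x, rfl⟩ := H.dvp n x
  rw [← rec_cp hD H hS P o hc (zn_dd hx) q (fun i ⟨l, m, Q, k, r⟩ => sub_eq_zero.2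
    (ur_pt k (nd_of hD k.1 fun x => m (hS x)) r (tor hx trivial))) hy.2.2.2.1 (.inr hy.2.2.2.2),
    ← Finset.sum_coe_sort S]
  exact Finset.sum_congr rfl fun p _ => pr_eq H _ _ _ rfl (q.mono le_top)

end Vale.Agent.P014U.Cp
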