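import Vale.Agent.P014U.Cp.Loc
import Vale.Agent.P014U.Cp.Rr
import Vale.Agent.P014U.L2.All
import Vale.Agent.P014U.Ki.All

/-!
# P014U, block CPT: the Kummer image is its own annihilator
-/

set_option autoImplicit false
set_option linter.all false

open scoped Classical

noncomputable section

namespace Vale.Agent.P014U.Cp

open NumberField Matrix
open Vale.Agent.P022 (Qb GQ)
open Vale.Agent.P022K
open Vale.Agent.P022D.W (dec)
open Vale.Agent.P022E.GW (Ov)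
open L2 (W)
open Vale.Agent.P014U.X4S.Ga (K O Z2 B2)
open Vale.Agent.P014U.X4S.Aq
open Vale.Agent.P014U.X4F.Rc (b2_add b2_neg b2_congr)
open Vale.Agent.P004M.TE (Pt ga)
open Ki (wp)
open Bt (dd Zl Km dd_apply)
open P014T.Wm (Fx)
open Ba (Tk Tp Dv)
open Vale.Agent.P014U.Iv (iv iv_iff)

variable [Pp] {A B : ℤ} (hD : 4 * (A : ℚ) ^ 3 + 27 * (B : ℚ) ^ 2 ≠ 0) {D : Subgroup GQ} {l n : ℕ}
  {P : Ideal (𝓞 Qb)} {ι : (GQ → GQ → K) →+ K ⧸ O}

/-- local duality in degree one for the points of order `pp` -/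
def LD1 (D : Subgroup GQ) : Prop := ∀ c ∈ G2.Z1 ∅ D (ro hD), (∀ c' ∈ G2.Z1 ∅ D (ro hD),
  (fun g h => P004S.wp (c' g) (ro hD g (c h))) ∈ G2.B2 ∅ D (G2.ch ω)) →
  c ∈ G2.B1 D (ro hD)

/-- cocycles with values in the points of order `pp` -/
def jz (D : Subgroup GQ) : G2.Z1 ∅ D (ro hD) →+ Zl A B D :=
  .mk' (fun z => ⟨_, (of_z1 hD z.2).mem⟩) fun a b => Subtype.ext (funext fun g => map_add _ _ _)

theorem vv_ind {c : GQ → Pt A B} (h : Zn D 1 c) {g : GQ} (m : g ∈ D) :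
    vv hD ((D : Set GQ).indicator (fun g => uv hD (c g)) g) = c g := by
  rw [Set.indicator_of_mem m, vv_uv hD (h.tr g m)]

theorem left1 (cl : IsClosed (D : Set GQ)) (L : LD1 hD D) (I : Iv D ι) (x : Fx A B D)
    (h : ∀ z, pr (Ki.pr hD) I x (jz hD D z) = 0) : x ∈ R2 (Fx A B D) := by
  obtain ⟨u, e⟩ := (Ki.pr hD).dvp 1 x.1
  have a : Zn D 1 (dd A B u) := zn_dd (e ▸ x.2)
  obtain ⟨v, hv⟩ := L _ (to_z1 hD cl a) fun c hc => (b2_iff hD cl
    (u := cp (wp hD) 1 (fun g => vv hD (c g)) (dd A B u)) fun g _ j m => by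
    rw [cp, mulVecLin_apply, ← ga_vv, vv_ind hD a m]).1 (b2_congr (b2_add
      ((pr_iff _ I x ⟨_, (of_z1 hD hc).mem⟩ e (of_z1 hD hc)).1 (h ⟨c, hc⟩)) (b2_neg (cp_sym (Ki.pr hD) a (of_z1 hD hc))))
      fun g _ j _ => O_of (zero_mem _) (by ring))
  refine ⟨⟨u - vv hD v, fun g m => ?_⟩, Subtype.ext ?_⟩
  · have := vv_ind hD a m
    rw [hv g m, G2.d0_apply, map_sub, mulVecLin_apply, ← ga_vv, dd_apply] at this
    rw [map_sub, sub_eq_sub_iff_sub_eq_sub, this]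
  · rw [pow_one] at e
    show pp • (u - vv hD v) = x
    rw [nsmul_sub, vv_pp, e, sub_zero]

theorem one2 : Ki.ONE2 := Ki.one2

/-- the Kummer image is isotropic -/
theorem pr_km (o : Ov l P) (I : Iv (dec P) ι) (x : Fx A B (dec P)) (y : Zl A B (dec P))
    (h : y.1 ∈ Km A B (dec P)) : pr (Ki.pr hD) I x y = 0 := by
  obtain ⟨Q, e⟩ := h
  obtain ⟨n, q⟩ := mem_Zl.1 y.2
  obtain ⟨u, k⟩ := (Ki.pr hD).dvp n x.1
  have m : pp ^ n • Q ∈ Fx A B (dec P) := fun g a => by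
    rw [map_nsmul, ← sub_eq_zero, ← nsmul_sub, ← e g a, q.tr g a]
  rw [pr_congr _ I x (y' := ⟨_, (zn_dd m).mem⟩) e, pr_iff _ I x _ k (zn_dd m)]
  exact Ki.iso_fin (by exact_mod_cast hD) one2 o (k ▸ x.2) m

theorem nn1 (o : Ov l P) (L : LD1 hD (dec P)) (I : Iv (dec P) ι) (y : Zl A B (dec P))
    (q : Zn (dec P) 1 y.1) (h : ∀ x, pr (Ki.pr hD) I x y = 0) : y.1 ∈ Km A B (dec P) := by
  have cl := G2.dec_closed P
  obtain ⟨_, c1⟩ := L2.cnt o (dt_ab hD) (rp_ro hD _) (ker_open hD)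
  rw [card_tk hD] at c1
  have := fin_tp hD o
  have f1 : Finite (Tk (Fx A B (dec P)) 1) := Finite.of_injective _
    (AddSubgroup.inclusion_injective (K := Tp _) fun x a => ⟨1, a⟩)
  have p1 : 0 < Nat.card (Tk (Fx A B (dec P)) 1) := Nat.card_pos
  let p := (pr (Ki.pr hD) I).flip.comp (jz hD (dec P))
  have c2 := (Ba.fd (fun z => ⟨1, Subtype.ext (funext fun g => funext fun i => by
    simp)⟩) p).1
  rw [show p.flip.ker = R2 _ from AddSubgroup.ext fun x => ⟨fun a => left1 hD cl L I x fun z =>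
    DFunLike.congr_fun a z, fun ⟨u, e⟩ => AddMonoidHom.ext fun z => by
      have := pr_pow (Ki.pr hD) I u (jz hD _ z) (of_z1 hD z.2)
      rwa [pow_one, show pp • u = x from e] at this⟩] at c2
  let G := (Fx A B (dec P)).comap (nsmulAddMonoidHom (α := Pt A B) pp)
  have zG : ∀ Q : G, Zn (dec P) 1 (dd A B Q) := fun Q => zn_dd (by rw [pow_one]; exact Q.2)
  let κ : G →+ G2.Z1 ∅ (dec P) (ro hD) := .mk' (fun Q => ⟨_, to_z1 hD cl (zG Q)⟩) fun a b =>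
    Subtype.ext (funext fun g => by
      by_cases m : g ∈ dec P
      · exact vv_inj hD ((vv_ind hD (zG _) m).trans (by
          rw [AddSubgroup.coe_add, map_add, Submodule.coe_add, Pi.add_apply, Pi.add_apply, map_add,
            vv_ind hD (zG a) m, vv_ind hD (zG b) m]))
      · simp [Set.indicator_of_notMem m])
  let μ : G →+ Fx A B (dec P) := ((nsmulAddMonoidHom pp).comp G.subtype).codRestrict _ fun Q => Q.2
  have c3 := idx_map μ (fun x => (Ki.pr hD).dv x.1 |>.elim fun Q e =>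
    ⟨⟨Q, show pp • Q ∈ _ from e ▸ x.2⟩, Subtype.ext e⟩) κ.ker
  have kk : ∀ Q : G, Q ∈ κ.ker ↔ Q.1 ∈ Fx A B (dec P) := fun Q => ⟨fun a g m => sub_eq_zero.1
    ((vv_ind hD (zG Q) m).symm.trans ((congrArg _ (congrFun (congrArg Subtype.val a) g)).trans
      (map_zero _))), fun a => Subtype.ext (funext fun g => by
    by_cases m : g ∈ dec P
    · exact vv_inj hD ((vv_ind hD (zG Q) m).trans ((sub_eq_zero.2 (a g m)).trans (map_zero _).symm))
    · exact (to_z1 hD cl (zG Q)).2.1 g m)⟩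
  have w {F : Type} [AddCommGroup F] (x : F) : pp ^ 1 • x = pp • x := by rw [pow_one]
  rw [AddSubgroup.index_ker, show κ.ker.map μ = R2 _ from AddSubgroup.ext fun x =>
      ⟨fun ⟨Q, a, e⟩ => ⟨⟨Q, (kk Q).1 a⟩, e⟩, fun ⟨u, e⟩ =>
        ⟨⟨u, nsmul_mem u.2 pp⟩, (kk _).2 u.2, e⟩⟩,
    show Nat.card (κ.ker.addSubgroupOf μ.ker) = Nat.card (Tk (Fx A B (dec P)) 1) from Nat.card_congr
      ⟨fun x => ⟨⟨x.1.1, (kk _).1 x.2⟩, Subtype.ext ((w _).trans (congrArg Subtype.val x.1.2))⟩,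
        fun x => ⟨⟨⟨x.1, nsmul_mem x.1.2 pp⟩, Subtype.ext ((w _).symm.trans
          (congrArg Subtype.val x.2))⟩, (kk _).2 x.1.2⟩, fun _ => rfl, fun _ => rfl⟩,
    show Nat.card μ.ker = pp ^ 2 from (Nat.card_congr (Equiv.ofBijective
      (fun v : W => (⟨⟨vv hD v, show pp • vv hD v ∈ Fx A B (dec P) from
        (vv_pp hD v).symm ▸ zero_mem _⟩, Subtype.ext (vv_pp hD v)⟩ : μ.ker))
      ⟨fun _ _ e => vv_inj hD (congrArg (·.1.1) e), fun x => ⟨_, Subtype.ext (Subtype.ext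
        (vv_uv' hD (congrArg Subtype.val x.2)))⟩⟩)).symm.trans (by simp)] at c3
  have c4 := AddSubgroup.card_mul_index p.ker
  have i0 := c2.trans_ne AddSubgroup.index_ne_zero_of_finite
  have c5 := idx_ge hD o i0
  rw [← c2] at c4
  have c6 := c4.trans_le c1
  have e : κ.range = p.ker := AddSubgroup.eq_of_le_of_card_ge (by
    rintro _ ⟨Q, rfl⟩
    exact AddMonoidHom.ext fun x => pr_km hD o I x _ ⟨Q, fun g m => vv_ind hD (zG Q) m⟩) (by
    refine Nat.le_of_mul_le_mul_right ?_ (Nat.mul_pos (Nat.pos_of_ne_zero i0) p1)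
    rw [← mul_assoc, mul_comm (R2 _).index (Nat.card _), ← mul_assoc (Nat.card κ.range), c3]
    refine (Nat.mul_le_mul_right _ c6).trans (le_of_eq_of_le ?_
      ((Nat.mul_le_mul_left (pp ^ 2) c5).trans_eq ?_)) <;> ring)
  obtain ⟨Q, k⟩ : (⟨_, to_z1 hD cl q⟩ : G2.Z1 ∅ (dec P) (ro hD)) ∈ κ.range := e ▸
    AddMonoidHom.ext fun x => (pr_congr _ I x fun g m => vv_ind hD q m).trans (h x)
  exact ⟨Q, fun g m => (vv_ind hD q m).symm.trans
    ((congrArg _ (congrFun (congrArg Subtype.val k) g).symm).trans (vv_ind hD (zG Q) m))⟩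

/-- **the annihilator of the local points** -/
theorem nn' (o : Ov l P) (L : LD1 hD (dec P)) (I : Iv (dec P) ι) (y : Zl A B (dec P)) :
    (∀ x, pr (Ki.pr hD) I x y = 0) ↔ y.1 ∈ Km A B (dec P) := by
  refine ⟨fun h => ?_, fun h x => pr_km hD o I x y h⟩
  obtain ⟨n, q⟩ := mem_Zl.1 y.2
  induction n generalizing y with
  | zero => exact ⟨0, fun g m => by simpa using q.tr g m⟩
  | succ n ih =>
    obtain ⟨Q, e⟩ := ih (pp • y) (fun x => by rw [map_nsmul, h, nsmul_zero]) q.two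
    obtain ⟨Q, rfl⟩ := (Ki.pr hD).dv Q
    have m : pp ^ (n + 1) • Q ∈ Fx A B (dec P) := fun g a => by
      rw [pow_succ, mul_smul, map_nsmul, ← sub_eq_zero, ← nsmul_sub, ← e g a]
      exact q.two.tr g a
    have k : dd A B Q ∈ Km A B (dec P) := ⟨Q, fun _ _ => rfl⟩
    rw [← sub_add_cancel y.1 (dd A B Q)]
    refine add_mem (nn1 hD o L I (y - ⟨_, (zn_dd m).mem⟩) (.of (y - ⟨_, (zn_dd m).mem⟩).2
      fun g a => ?_) fun x => by rw [map_sub, h, pr_km hD o I x _ k, sub_zero]) k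
    show pp ^ 1 • (y.1 g - (ga g Q - Q)) = 0
    rw [pow_one, nsmul_sub, nsmul_sub, ← map_nsmul, ← e g a]
    exact sub_self _

theorem ld1 (o : Ov l P) : LD1 hD (dec P) := fun _ hc e =>
  L2.ld1' o (dt_ab hD) (rp_ro hD _) hc fun b m => by
    rw [L2.BB, dt_ab]
    exact e b m

/-- **(N)** -/
theorem nn (o : Ov l P) (I : Iv (dec P) ι) (y : Zl A B (dec P)) :
    (∀ x, pr (Ki.pr hD) I x y = 0) ↔ y.1 ∈ Km A B (dec P) := nn' hD o (ld1 hD o) I y

/-! ### the global pairing -/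

variable {S : Finset ℕ} {Q : ℕ → Ideal (𝓞 Qb)} (o : ∀ p ∈ S, Ov p (Q p)) (T : Finset ℕ) (c : GQ)

/-- **the sum of the local pairings** -/
def PR : (∀ p : S, Fx A B (dec (Q p))) →+ Bt.Z0 A B T c →+ Dv :=
  ∑ p : S, ((pr (Ki.pr hD) (ivP (o p p.2))).comp (Pi.evalAddMonoidHom _ p)).compl₂
    (AddSubgroup.inclusion (Bt.Z0_le T c _))

theorem PR_apply (x : ∀ p : S, Fx A B (dec (Q p))) (y : Bt.Z0 A B T c) : PR hD o T c x y =
    ∑ p : S, pr (Ki.pr hD) (ivP (o p p.2)) (x p) ⟨y, Bt.Z0_le T c _ y.2⟩ := by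
  simp only [PR, AddMonoidHom.finsetSum_apply]
  rfl

theorem PR_single (p : S) (x : Fx A B (dec (Q p))) (y : Bt.Z0 A B T c) :
    PR hD o T c (Pi.single p x) y = pr (Ki.pr hD) (ivP (o p p.2)) x ⟨y, Bt.Z0_le T c _ y.2⟩ := by
  rw [PR_apply, Finset.sum_eq_single p (fun q _ e => by
    rw [Pi.single_eq_of_ne e, map_zero, AddMonoidHom.zero_apply]) (by simp), Pi.single_eq_same]

/-- the right kernel is the framed Selmer group -/
theorem PR_ker (y : Bt.Z0 A B T c) :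
    (∀ x, PR hD o T c x y = 0) ↔ ∀ p ∈ S, y.1 ∈ Km A B (dec (Q p)) :=
  ⟨fun h p m => (nn hD (o p m) (ivP (o p m)) ⟨y, Bt.Z0_le T c _ y.2⟩).1 fun x =>
    (PR_single hD o T c ⟨p, m⟩ x y).symm.trans (h _), fun h x => (PR_apply hD o T c x y).trans
      (Finset.sum_eq_zero fun p _ => pr_km hD (o p p.2) _ _ _ (h p p.2))⟩

theorem PR_zs (y : Bt.Z0 A B S c) : (∀ x, PR hD o S c x y = 0) ↔ y.1 ∈ Bt.Zs A B S c Q :=
  (PR_ker hD o S c y).trans (Bt.mem_Zs.trans (and_iff_right y.2)).symm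

/-- the diagonal -/
def dg (S : Finset ℕ) (Q : ℕ → Ideal (𝓞 Qb)) : Fx A B ⊤ →+ ∀ p : S, Fx A B (dec (Q p)) :=
  Pi.addMonoidHom fun _ => AddSubgroup.inclusion fun _ h g _ => h g trivial

/-- **(R)** -/
theorem PR_dg (hS : Sb A B ⊆ S) (hc : P022.IsConj c) (x : Fx A B ⊤) (y : Bt.Z0 A B S c) :
    PR hD o S c (dg S Q x) y = 0 :=
  (PR_apply hD o S c _ y).trans (rr hD _ hS Q o hc x.2 y.2)

end Vale.Agent.P014U.Cp
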