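import Vale.Agent.P014U.Cp.One
import Vale.Agent.P014U.L2.Sy
import Vale.Agent.P014T.Ht.Wmw
import Vale.Agent.P022K.Cheb.Main
import Vale.Agent.P022K.GW.Pl

/-! # P014U: a rational point which is locally a multiple of `pp` at enough primes is a multiple -/

set_option autoImplicit false
set_option linter.all false

open NumberField Matrix
open scoped Pointwise

noncomputable section

namespace Vale.Agent.P014U.Cp.Cc

open Vale.Agent.P022 (Qb GQ)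
open Vale.Agent.P022E.GW (Ov)
open Vale.Agent.P022D.W (dec)
open P004M.TE (Pt ga ga_mul ga_one ev_ga)
open P014T.Wm (Fx)
open Vale.Agent.P022K

open scoped Classical

variable [Pp] {A B : ℤ}

/-- `x` is a multiple of a point fixed by `Γ` -/
def Hf (Γ : Subgroup GQ) (x : Pt A B) : Prop := ∃ y ∈ Fx A B Γ, pp • y = x

/-- one point -/
theorem one (hD : 4 * A ^ 3 + 27 * B ^ 2 ≠ 0) {x : Pt A B} (hx : x ∈ Fx A B ⊤) (k : ¬ Hf ⊤ x)
    (T : Finset ℕ) : ∃ l : ℕ, l.Prime ∧ l ∉ T ∧ ∀ P, Ov l P → ¬ Hf (dec P) x := by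
  have hD' : 4 * (A : ℚ) ^ 3 + 27 * (B : ℚ) ^ 2 ≠ 0 := by exact_mod_cast hD
  obtain ⟨h₀, e₀⟩ := X4M.TE.mul_surj two_ne_zero hD' pp_ne x
  let X := {h : Pt A B // pp • h = x}
  have u : ∀ t : X, vv hD' (uv hD' (t.1 - h₀)) = t.1 - h₀ := fun t =>
    vv_uv hD' (by rw [pow_one, nsmul_sub, t.2, e₀, sub_self])
  have : Finite X := Finite.of_injective (fun t : X => uv hD' (t.1 - h₀)) fun s t e =>
    Subtype.ext (sub_left_injective ((u s).symm.trans ((congrArg _ e).trans (u t))))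
  obtain ⟨g, hg⟩ : ∃ g : GQ, ∀ t : X, ga g t.1 ≠ t.1 := by
    by_contra c
    push Not at c
    have q : Zn ⊤ 1 (Bt.dd A B h₀) := zn_dd (by rwa [pow_one, e₀])
    have i : ∀ g, vv hD' (((⊤ : Subgroup GQ) : Set GQ).indicator
        (fun g => uv hD' (Bt.dd A B h₀ g)) g) = ga g h₀ - h₀ := fun g => by
      rw [Set.indicator_of_mem (Subgroup.mem_top g), vv_uv hD' (q.tr g trivial)]; rfl
    obtain ⟨v, hv⟩ := L2.cyc1 (rp_ro hD' ⊤) (to_z1 hD' isClosed_univ q) fun g _ =>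
      (c g).elim fun t e => ⟨-uv hD' (t.1 - h₀), vv_inj hD' (by
        rw [i, map_sub, ← ga_vv, map_neg, u, map_neg, map_sub, e]; abel)⟩
    refine k ⟨h₀ - vv hD' v, fun g _ => ?_, by
      rw [nsmul_sub, e₀, vv_pp, sub_zero]⟩
    have := i g
    rw [hv g trivial, G2.d0_apply, map_sub, mulVecLin_apply, ← ga_vv] at this
    rw [map_sub, sub_eq_sub_iff_sub_eq_sub, this]
  obtain ⟨O, h1, h2, h3⟩ := mem_nhds_iff.1 (Filter.eventually_all.2 fun t : X => ev_ga g t.1)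
  obtain ⟨l, φ, a, b, ⟨P₀, c1, c2, c3⟩, d⟩ := P022K.Cheb.exists_fr h2 h3 T
  refine ⟨l, a, b, fun P o ⟨y, y1, y2⟩ => ?_⟩
  obtain ⟨s, rfl⟩ := P022K.GW.Pl.ov_trans o ⟨a, c1, c2⟩
  have m := (P022K.GW.Pl.dec_iff _ _).1 (P022K.GW.Pl.fr_dec c1 a.ne_zero c3)
  have m' : s⁻¹ * φ * s ∈ dec P := (P022K.GW.Pl.dec_iff _ _).2 (by
    rw [mul_smul, mul_smul, m, inv_smul_smul])
  let t : X := ⟨ga s y, by rw [← map_nsmul, y2, hx s trivial]⟩
  refine hg t ((h1 d t).symm.trans ?_)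
  show ga φ (ga s y) = ga s y
  conv_rhs => rw [← y1 _ m', ← ga_mul]
  rw [← ga_mul]
  congr 2
  group

/-- **(c)**: a finite set of primes (outside any given finite set) which detects the multiples -/
theorem cc (hD : 4 * A ^ 3 + 27 * B ^ 2 ≠ 0) (T : Finset ℕ) : ∃ S : Finset ℕ,
    (∀ l ∈ S, l.Prime ∧ l ∉ T) ∧ ∀ x ∈ Fx A B ⊤, (∀ l ∈ S, ∃ P, Ov l P ∧ Hf (dec P) x) → Hf ⊤ x := by
  have := P014T.Wm.fg hD (Γ := ⊤) isOpen_univ
  have w := AddSubgroup.finiteIndex_range_nsmulAddMonoidHom_of_fg (Fx A B ⊤) pp_ne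
  let R := (nsmulAddMonoidHom (α := Fx A B ⊤) pp).range
  have : Fintype (Fx A B ⊤ ⧸ R) := Fintype.ofFinite _
  have H (q : {q : Fx A B ⊤ ⧸ R // ¬ Hf ⊤ (q.out : Pt A B)}) := one hD q.1.out.2 q.2 T
  choose l l1 l2 l3 using H
  refine ⟨Finset.univ.image l, fun p hp => ?_, fun x hx h => by_contra fun k => ?_⟩
  · obtain ⟨q, -, rfl⟩ := Finset.mem_image.1 hp
    exact ⟨l1 q, l2 q⟩
  obtain ⟨⟨_, z, rfl⟩, e⟩ := QuotientAddGroup.mk_out_eq_mul R (⟨x, hx⟩ : Fx A B ⊤)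
  have e' : ((QuotientAddGroup.mk (s := R) (⟨x, hx⟩ : Fx A B ⊤)).out : Pt A B) = x + pp • z.1 :=
    congrArg Subtype.val e
  obtain ⟨P, o, y, y1, y2⟩ := h (l ⟨QuotientAddGroup.mk ⟨x, hx⟩, fun ⟨y, y1, y2⟩ =>
    k ⟨y - z, sub_mem y1 z.2, by rw [nsmul_sub, y2, e', add_sub_cancel_right]⟩⟩)
    (Finset.mem_image_of_mem _ (Finset.mem_univ _))
  exact l3 _ P o ⟨y + z, add_mem y1 fun g _ => z.2 g trivial, by rw [nsmul_add, y2, e']⟩

end Vale.Agent.P014U.Cp.Cc
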