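import Vale.Agent.P014U.Cp.One
import Vale.Agent.P014U.Ki.Tor
import Vale.Agent.P014U.Ba.Dv
import Vale.Agent.P014T.Cp.Loc

/-!
# P014U, block CPT: local points modulo `pp`
-/

set_option autoImplicit false
set_option linter.all false

open scoped Classical

noncomputable section

namespace Vale.Agent.P014U.Cp

export Vale.Agent.P014T.Cp (idx_map)

open Matrix NumberField
open Vale.Agent.P022 (Qb GQ)
open Vale.Agent.P022D.W (dec)
open Vale.Agent.P022E.GW (Ov)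
open L2 (W)
open Vale.Agent.P004M.TE (Pt ga)
open P014T.Wm (Fx)
open Ba (Tk Tp)

variable [Pp]

/-- the multiples of `pp` -/
abbrev R2 (F : Type) [AddCommGroup F] : AddSubgroup F := (nsmulAddMonoidHom (α := F) pp).range

theorem idx_two (F : Type) [AddCommGroup F] [Finite (Tp F)] :
    Nat.card (Tk F 1) * (R2 F ⊔ Tp F).index = (R2 F).index := by
  rw [← AddSubgroup.relIndex_mul_index (le_sup_left (a := R2 F) (b := Tp F)),
    AddSubgroup.relIndex_sup_left, AddSubgroup.relIndex,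
    show (R2 F).addSubgroupOf (Tp F) = R2 (Tp F) from AddSubgroup.ext fun x =>
      ⟨fun ⟨y, e⟩ => ⟨⟨y, x.2.elim fun k a => ⟨k + 1, by
        rw [pow_succ, mul_smul]; exact (congrArg _ e).trans a⟩⟩, Subtype.ext e⟩,
        fun ⟨y, e⟩ => ⟨y, congrArg Subtype.val e⟩⟩, AddSubgroup.index_range]
  exact congrArg (· * _) (Nat.card_congr ⟨fun x => ⟨⟨x, 1, x.2⟩, Subtype.ext
    ((congrArg (· • x.1) (pow_one pp)).symm.trans x.2)⟩, fun x => ⟨x.1.1,
      (congrArg (· • x.1.1) (pow_one pp)).trans (congrArg Subtype.val x.2)⟩, fun _ => rfl, fun _ => rfl⟩)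

theorem pp_le {F : Type} [AddCommGroup F] {H : AddSubgroup F} (h : R2 F ≤ H) (t : H ≠ ⊤)
    (i : H.index ≠ 0) : pp ≤ H.index := by
  obtain ⟨x, n⟩ : ∃ x, x ∉ H := not_forall.1 (mt (AddSubgroup.eq_top_iff' H).2 t)
  refine Nat.le_of_dvd (Nat.pos_of_ne_zero i) ?_
  rw [← addOrderOf_eq_prime (p := pp) (x := (x : F ⧸ H)) (by
    rw [← QuotientAddGroup.mk_nsmul, QuotientAddGroup.eq_zero_iff]; exact h ⟨x, rfl⟩)
    (mt (QuotientAddGroup.eq_zero_iff x).1 n)]
  exact addOrderOf_dvd_natCard _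

variable {A B : ℤ} (hD : 4 * (A : ℚ) ^ 3 + 27 * (B : ℚ) ^ 2 ≠ 0) {D : Subgroup GQ} {l : ℕ}
  {P : Ideal (𝓞 Qb)}
include hD

/-- the local points of order a power of `pp` have a bounded order -/
theorem ft (o : Ov l P) : ∃ k, ∀ x ∈ Fx A B (dec P), x ∈ Tp (Pt A B) → pp ^ k • x = 0 :=
  (Ki.ft (by exact_mod_cast hD) o).imp fun _ h x a b => b.elim (h x a)

theorem fin_tp (o : Ov l P) : Finite (Tp (Fx A B (dec P))) := Ki.fin_tp (by exact_mod_cast hD) o

theorem card_tk (D : Subgroup GQ) :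
    Nat.card {v : W // ∀ g ∈ D, ab hD g *ᵥ v = v} = Nat.card (Tk (Fx A B D) 1) :=
  Nat.card_congr (Equiv.ofBijective (fun v => ⟨⟨vv hD v, fun g m => by rw [ga_vv, v.2 g m]⟩,
    Subtype.ext (vv_two hD _)⟩) ⟨fun _ _ e => Subtype.ext (vv_inj hD
      (Subtype.mk.inj (Subtype.mk.inj e))), fun x => by
    obtain ⟨v, e⟩ := ex_vv hD (t := x.1.1) (congrArg Subtype.val x.2)
    exact ⟨⟨v, fun g m => vv_inj hD (by rw [← ga_vv, e, x.1.2 g m])⟩, Subtype.ext (Subtype.ext e)⟩⟩)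

/-- at `pp` the local points are not generated by the multiples of `pp` and the torsion -/
theorem ne_top (o : Ov pp P) : R2 (Fx A B (dec P)) ⊔ Tp _ ≠ ⊤ := fun t => by
  obtain ⟨x, m, h⟩ := Ki.x0 (by exact_mod_cast hD) o
  obtain ⟨_, ⟨y, rfl⟩, v, ⟨j, b⟩, e⟩ := AddSubgroup.mem_sup.1
    (t ▸ AddSubgroup.mem_top (⟨x, m⟩ : Fx A B (dec P)))
  exact h v j (congrArg Subtype.val b) y y.2 ((congrArg Subtype.val e).symm.trans (add_comm _ _))

/-- **the local points modulo `pp`** -/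
theorem idx_ge (o : Ov l P) (h : (R2 (Fx A B (dec P))).index ≠ 0) :
    (if l = pp then pp ^ 2 else 1) * Nat.card (Tk (Fx A B (dec P)) 1) ^ 2 ≤
      (R2 (Fx A B (dec P))).index ^ 2 := by
  have := fin_tp hD o
  rw [← idx_two] at h ⊢
  rw [mul_pow, mul_comm]
  refine Nat.mul_le_mul_left _ ?_
  have a := right_ne_zero_of_mul h
  split_ifs with e
  · exact Nat.pow_le_pow_left (pp_le le_sup_left (ne_top hD (e ▸ o)) a) 2
  · exact Nat.one_le_pow _ _ (Nat.pos_of_ne_zero a)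

end Vale.Agent.P014U.Cp
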