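import Vale.Agent.P014U.Cp.Defs
import Vale.Agent.P014U.L2.Gp
import Vale.Agent.P014T.Cp.One

/-!
# P014U, block CPT: points of order `pp`, the Bockstein map (port by helper94)
-/

set_option autoImplicit false
set_option linter.all false

open scoped Classical

noncomputable section

namespace Vale.Agent.P014U.Cp

export Vale.Agent.P014T.Cp (bk bk_co bk_lc)

open Matrix
open Vale.Agent.P022 (Qb GQ)
open Vale.Agent.P022K
open L2 (W M2 rh)
open Vale.Agent.P014U.X4S.Ga (K O d2 d3 Z2 B2)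
open Vale.Agent.P014U.X4S.Aq
open Vale.Agent.P014U.X4F.Rc (mq mq_eq mq_zero hn b2_add b2_neg b2_congr b2_zero)
open Vale.Agent.P014U.X4M.TE (Pt ga ga_mul ga_one ev_ga Tm bs mt rep rho cp_rho hdiv)
open P027M.K
open Ki (Pr tor tor_map tor_neg tor_add tor_up fx_up wp wp_cp dt wp_lev)
open Bt (dd Zl Km dd_apply)
open P014T.Wm (Fx)

variable [Pp] {A B : ℤ} (hD : 4 * (A : ℚ) ^ 3 + 27 * (B : ℚ) ^ 2 ≠ 0)

/-- the reduction of an element of the Tate module -/
def tz (s : Tm (A : ℚ) (B : ℚ)) : W := fun i => PadicInt.toZMod ((bs hD).repr s i)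

/-- a lift to the Tate module -/
def tl (v : W) : Tm (A : ℚ) (B : ℚ) := (bs hD).equivFun.symm fun i => ((v i).val : ℤ_[pp])

theorem tz_tl (v : W) : tz hD (tl hD v) = v := funext fun i => by
  rw [tz, tl, ← Module.Basis.equivFun_apply, LinearEquiv.apply_symm_apply, map_natCast,
    ZMod.natCast_zmod_val]

theorem tz_add (s t : Tm (A : ℚ) (B : ℚ)) : tz hD (s + t) = tz hD s + tz hD t :=
  funext fun i => by simp [tz]

theorem cp_iff {s t : Tm (A : ℚ) (B : ℚ)} : TM.cp 1 s = TM.cp 1 t ↔ tz hD s = tz hD t := by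
  have k : ∀ a : ℤ_[pp], PadicInt.toZMod a = 0 ↔ ∃ c, a = pp * c := fun a => by
    rw [← RingHom.mem_ker, PadicInt.ker_toZMod, PadicInt.maximalIdeal_eq_span_p,
      Ideal.mem_span_singleton]
    rfl
  rw [← sub_eq_zero, ← map_sub, TM.cp_eq_zero_iff, funext_iff]
  have k2 : ∀ i, tz hD s i = tz hD t i ↔ ∃ c, (bs hD).repr (s - t) i = pp * c := fun i => by
    rw [← k, map_sub, Finsupp.sub_apply, map_sub, sub_eq_zero, tz, tz]
  simp only [k2]
  refine ⟨fun ⟨y, e⟩ i => ⟨(bs hD).repr y i, by simp [e]⟩, fun h => ?_⟩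
  choose c hc using h
  refine ⟨(bs hD).equivFun.symm c, (bs hD).equivFun.injective (funext fun i => ?_)⟩
  rw [map_smul, LinearEquiv.apply_symm_apply, Module.Basis.equivFun_apply, hc]
  simp

/-- **the points of order `pp`** -/
def vv : W →+ Pt A B := AddMonoidHom.mk' (fun v => TM.cp 1 (tl hD v)) fun a b => by
  rw [← map_add, cp_iff hD, tz_add, tz_tl, tz_tl, tz_tl]

theorem vv_tz (s : Tm (A : ℚ) (B : ℚ)) : vv hD (tz hD s) = TM.cp 1 s :=
  (cp_iff hD).2 (tz_tl hD _)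

theorem vv_inj : Function.Injective (vv hD) := fun a b e => by
  rw [← tz_tl hD a, ← tz_tl hD b]
  exact (cp_iff hD).1 e

theorem vv_two (v : W) : pp ^ 1 • vv hD v = 0 := TM.pow_smul_cp _ 1

theorem vv_pp (v : W) : pp • vv hD v = 0 := by simpa only [pow_one] using vv_two hD v

theorem ex_vv {t : Pt A B} (h : pp ^ 1 • t = 0) : ∃ v, vv hD v = t :=
  (TM.exists_cp (hdiv hD) h).elim fun s e => ⟨_, (vv_tz hD s).trans e⟩

/-- the residual matrices -/
def ab : GQ →* M2 := (PadicInt.toZMod (p := pp)).mapMatrix.toMonoidHom.comp (mt hD)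

theorem ab_apply (g : GQ) : ab hD g = (mt hD g).map PadicInt.toZMod := rfl

theorem dt_ab : L2.dt (ab hD) = ω := funext fun g =>
  (RingHom.map_det _ _).symm.trans ((congrArg _ (Ki.det_mt hD g)).trans (cz_om g))

theorem ga_vv (g : GQ) (v : W) : ga g (vv hD v) = vv hD (ab hD g *ᵥ v) := by
  have e := LinearMap.toMatrix_mulVec_repr (bs hD) (bs hD) (rho _ _ g) (tl hD v)
  refine (vv_tz hD (rho _ _ g (tl hD v))).symm.trans (congrArg _ (funext fun i => ?_))
  rw [tz, ← e, ← tz_tl hD v]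
  change PadicInt.toZMod ((mt hD g *ᵥ _) i) = _
  simp only [mulVec, dotProduct, Fin.sum_univ_two, ab_apply, map_apply, map_add, map_mul, tz_tl]
  rw [← congrFun (tz_tl hD v) 0, ← congrFun (tz_tl hD v) 1]
  rfl

theorem wp_hf (x y : Pt A B) : (pp : K) * wp hD 1 x y ∈ O := by simpa using wp_lev hD 1 x y

theorem rz_wp (a b : W) : rz (wp hD 1 (vv hD a) (vv hD b)) = P004S.wp a b := by
  have k : ∀ c : ℤ_[pp], rz (hn 1 * c) = PadicInt.toZMod c := fun c =>
    rz_eq (by rw [hn, pow_one, mul_inv_cancel_left₀ pk_ne])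
  rw [← tz_tl hD a, ← tz_tl hD b, vv_tz, vv_tz, rz_congr (mq_eq.1 (wp_cp hD 1 _ _)), k, dt, map_sub,
    map_mul, map_mul]
  rfl

/-- the coordinates of a point of order `pp` -/
def uv : Pt A B → W := Function.invFun (vv hD)

theorem uv_vv (v : W) : uv hD (vv hD v) = v := Function.leftInverse_invFun (vv_inj hD) v

theorem vv_uv {t : Pt A B} (h : pp ^ 1 • t = 0) : vv hD (uv hD t) = t :=
  Function.invFun_eq (ex_vv hD h)

theorem vv_uv' {t : Pt A B} (h : pp • t = 0) : vv hD (uv hD t) = t := vv_uv hD (by rwa [pow_one])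

/-- the bad primes -/
def Sb (A B : ℤ) : Finset ℕ := (2 * pp * (4 * A ^ 3 + 27 * B ^ 2)).natAbs.primeFactors

/-- the residual representation -/
abbrev ro : GQ → Module.End (ZMod pp) W := rh (ab hD)

theorem ker_open : IsOpen ((ab hD).ker : Set GQ) := (ab hD).ker.isOpen_of_mem_nhds (g := 1)
  ((Filter.eventually_all.2 fun v : W => ev_ga 1 (vv hD v)).mono fun g e =>
    Matrix.ext_iff_mulVec.2 fun v => vv_inj hD (by rw [← ga_vv, e v, ga_one, one_mulVec]))

theorem rp_ro (D : Subgroup GQ) : G2.Rp ∅ D (ro hD) :=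
  L2.rp_of ((G2.ex_lv' (ker_open hD)).imp fun _ h => ⟨h.1, fun _ _ m => h.2 m⟩)

variable {D : Subgroup GQ} {c : GQ → Pt A B} {z : GQ → W}

theorem to_z1 (cl : IsClosed (D : Set GQ)) (h : Zn D 1 c) :
    (D : Set GQ).indicator (fun g => uv hD (c g)) ∈ G2.Z1 ∅ D (ro hD) :=
  G2.z1_of (rp_ro hD D).one (G2.c1_of_lc cl (h.lc.comp (uv hD)))
    fun g hg j hj => vv_inj hD (by
      rw [G2.d1_apply, map_add, map_sub, mulVecLin_apply, ← ga_vv, vv_uv hD (h.tr j hj),
        vv_uv hD (h.tr g hg), vv_uv hD (h.tr _ (mul_mem hg hj)), h.co g hg j hj, map_zero]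
      abel)

theorem of_z1 (h : z ∈ G2.Z1 ∅ D (ro hD)) : Zn D 1 fun g => vv hD (z g) :=
  ⟨(G2.C1.lc (G2.Z1.c1 h)).comp (vv hD), fun g hg j hj => by
    rw [h.1 g hg j hj, map_add, ga_vv, mulVecLin_apply], fun g _ => vv_two hD _⟩

/-- coboundaries with values in `O / pp` -/
theorem b2_iff (cl : IsClosed (D : Set GQ)) {x y : GQ → GQ → W} {u : GQ → GQ → K}
    (e : ∀ g ∈ D, ∀ h ∈ D, u g h = wp hD 1 (vv hD (x g h)) (vv hD (y g h))) :
    B2 cy D u ↔ (fun g h => P004S.wp (x g h) (y g h)) ∈ G2.B2 ∅ D (G2.ch ω) := by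
  have hf : ∀ g ∈ D, ∀ h ∈ D, (pp : K) * u g h ∈ O := fun g p h q => e g p h q ▸ wp_hf hD _ _
  refine ⟨fun h => (toB cl h hf).imp fun a p => ⟨p.1, fun g hg j hj => ?_⟩, fun ⟨a, p, q⟩ =>
    ⟨_, ofB hf p fun g hg j hj => ?_⟩⟩
  · exact ((rz_wp hD _ _).symm.trans (congrArg rz (e g hg j hj).symm)).trans (p.2 g hg j hj)
  · rw [e g hg j hj, rz_wp]
    exact q g hg j hj

/-! ### the Bockstein map -/

omit hD

variable {w : ℕ → Pt A B → Pt A B → K} {ι : (GQ → GQ → K) →+ K ⧸ O} {n : ℕ} {y : GQ → Pt A B}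

theorem bk_two (q : Zn D n (pp • y)) {g h : GQ} (hg : g ∈ D) (hh : h ∈ D) : pp ^ 1 • bk y g h = 0 := by
  have := q.co g hg h hh
  simp only [Pi.smul_apply, map_nsmul] at this
  rw [pow_one, bk, nsmul_add, nsmul_sub, this]
  abel

theorem lev_pow (H : Pr (M := Pt A B) ga w) {x t : Pt A B} (c : ℕ) (a : pp ^ (n + c) • x = 0)
    (b : pp ^ n • t = 0) : mq (w n (pp ^ c • x) t) = mq (w (n + c) x t) := by
  induction c generalizing x with
  | zero => rw [pow_zero, one_smul, add_zero]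
  | succ c ih =>
    rw [pow_succ, mul_smul, ih (by rwa [← mul_smul, ← pow_succ])]
    exact H.levl a (tor_up b c)

/-- **the pairing with a point of order `pp`** -/
theorem bock (H : Pr (M := Pt A B) ga w) (I : Iv D ι) (t : Fx A B D) (ht : pp ^ 1 • t.1 = 0)
    (x : Zl A B D) (p : IsLocallyConstant fun g : D => y g) (e : ∀ g ∈ D, pp • y g = x.1 g) :
    pr H I t x = -ι fun g h => w 1 t (bk y g h) := by
  obtain ⟨n, q⟩ := mem_Zl.1 x.2
  obtain ⟨s, k⟩ := H.dvp n t.1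
  have q2 : Zn D n (pp • y) := ⟨(p.comp fun a => pp • a :), fun g a h b => by
    simpa only [Pi.smul_apply, e _ a, e _ b, e _ (mul_mem a b)] using q.co g a h b,
    fun g a => by rw [Pi.smul_apply, e g a, q.tr g a]⟩
  have s1 : pp ^ (n + 1) • s = 0 := by rw [pow_succ', mul_smul, k, ← ht, pow_one]
  have y1 : ∀ g ∈ D, pp ^ (n + 1) • y g = 0 := fun g a => by rw [pow_succ, mul_smul, e g a, q.tr g a]
  rw [pr_eq H I t x k q, eq_neg_iff_add_eq_zero, ← map_add]
  refine I.b2 _ ⟨fun h => w (n + 1) s (y h), con1 (p.comp (w (n + 1) s)), fun g a h b => mq_eq.1 ?_⟩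
  have k1 := lev_pow H n (add_comm n 1 ▸ s1) (bk_two q2 a b)
  have k2 := H.lev (tor (x := s) (ρ := ga) (D := D) (k ▸ t.2) a) (tor_map (ρ := ga) (y1 h b) g)
  rw [← map_nsmul, e h b] at k2
  simp only [d2, cp, dd_apply, Pi.add_apply, map_add mq, map_sub mq]
  rw [k2, ← k, k1, add_comm 1 n, H.act g s1 (y1 h b), sub_eq_add_neg (ga g s),
    H.addl (tor_map s1 g) (tor_neg s1) (tor_map (y1 h b) g), H.negl s1 (tor_map (y1 h b) g), bk,
    sub_eq_add_neg (ga g (y h)), H.addr s1 (tor_add (tor_map (y1 h b) g) (tor_neg (y1 _ (mul_mem a b))))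
      (y1 g a), H.addr s1 (tor_map (y1 h b) g) (tor_neg (y1 _ (mul_mem a b))),
    H.negr s1 (y1 _ (mul_mem a b))]
  abel

end Vale.Agent.P014U.Cp
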